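import Mathlib

/-!
# P108: the sum over the scales of the masses of the peaks is super-polynomially small

`s0 b k = ⌈k^(1-b) (log k)^2⌉`, radii `R j = s0 * 2^j`.  The mass of the peaks of scale `j`, with the
weight `(C₁ R j)^{C₂}` and the number `(s0+1)^{C₁ (2^j+1)}` of patterns, is at most
`3 (1 - c₁ k^(b-1))^⌊c₂ R j⌋ ≤ 3 exp (- c (log k)^2 2^j)`.
-/

open Filter Set Topology

open scoped ENNReal

namespace Vale.Agent.P108.Por

/-- the smallest scale of the defects -/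
noncomputable def s0 (b k : ℝ) : ℕ := ⌈k ^ (1 - b) * (Real.log k) ^ 2⌉₊

/-- the bound of the mass of the peaks of scale `j` -/
noncomputable def pkTerm (b c₁ c₂ : ℝ) (C₁ C₂ : ℕ) (k : ℝ) (j : ℕ) : ℝ :=
  ((C₁ : ℝ) * (s0 b k * 2 ^ j)) ^ C₂ * ((s0 b k : ℝ) + 1) ^ (C₁ * (2 ^ j + 1)) *
    (3 * (1 - c₁ * k ^ (b - 1)) ^ ⌊c₂ * (s0 b k * 2 ^ j)⌋₊)

lemma s0_ge (b k : ℝ) : k ^ (1 - b) * (Real.log k) ^ 2 ≤ s0 b k := Nat.le_ceil _

/-- `k^(b-1) s0 ≥ (log k)^2` -/
lemma log_sq_le {b k : ℝ} (hk : 0 < k) : (Real.log k) ^ 2 ≤ k ^ (b - 1) * s0 b k := by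
  calc (Real.log k) ^ 2 = k ^ (b - 1) * (k ^ (1 - b) * (Real.log k) ^ 2) := by
        rw [← mul_assoc, ← Real.rpow_add hk]; simp
    _ ≤ _ := mul_le_mul_of_nonneg_left (s0_ge b k) (Real.rpow_nonneg hk.le _)

lemma eventually_s0_le {b : ℝ} (hb : 0 < b) :
    ∀ᶠ k : ℝ in atTop, (s0 b k : ℝ) + 1 ≤ k := by
  have h1 : Tendsto (fun k : ℝ => (Real.log k) ^ 2 / k ^ b) atTop (𝓝 0) := by
    have := isLittleO_log_rpow_rpow_atTop (2 : ℝ) hb
    have := this.tendsto_div_nhds_zero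
    refine this.congr fun k => ?_
    norm_cast
  have h2 : ∀ᶠ k : ℝ in atTop, (Real.log k) ^ 2 / k ^ b < 1 / 2 :=
    h1.eventually (gt_mem_nhds (by norm_num))
  filter_upwards [h2, eventually_ge_atTop (4 : ℝ)] with k hk hk4
  have hk0 : 0 < k := by linarith
  have hkb : 0 < k ^ b := Real.rpow_pos_of_pos hk0 b
  have h3 : k ^ (1 - b) * (Real.log k) ^ 2 ≤ k / 2 := by
    rw [Real.rpow_sub hk0, Real.rpow_one]
    rw [div_lt_iff₀ hkb] at hk
    rw [div_mul_eq_mul_div, div_le_iff₀ hkb]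
    nlinarith
  have h0 : 0 ≤ k ^ (1 - b) * (Real.log k) ^ 2 := by positivity
  have h4 := Nat.ceil_lt_add_one h0
  have : (s0 b k : ℝ) < k ^ (1 - b) * (Real.log k) ^ 2 + 1 := h4
  linarith

lemma tendsto_log_sq : Tendsto (fun k : ℝ => (Real.log k) ^ 2) atTop atTop :=
  (tendsto_pow_atTop (by norm_num)).comp Real.tendsto_log_atTop

/-- **each scale is super-polynomially small** -/
theorem pkTerm_le {b c₁ c₂ : ℝ} (hb : 0 < b) (hb1 : b < 1) (hc₁ : 0 < c₁) (hc₂ : 0 < c₂)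
    (C₁ C₂ : ℕ) :
    ∀ᶠ k : ℝ in atTop, ∀ j : ℕ,
      0 ≤ pkTerm b c₁ c₂ C₁ C₂ k j ∧
      pkTerm b c₁ c₂ C₁ C₂ k j ≤ Real.exp (-(c₁ * c₂ / 8) * (Real.log k) ^ 2) ^ (j + 1) := by
  set A : ℝ := 2 * C₁ + 3 * C₂ with hA
  have hA0 : 0 ≤ A := by positivity
  set c : ℝ := c₁ * c₂ / 2 with hc
  have hc0 : 0 < c := by positivity
  have hsmall : ∀ᶠ k : ℝ in atTop, c₁ * k ^ (b - 1) < 1 := by
    have : Tendsto (fun k : ℝ => c₁ * k ^ (b - 1)) atTop (𝓝 (c₁ * 0)) := by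
      refine Tendsto.const_mul _ ?_
      have := tendsto_rpow_neg_atTop (y := 1 - b) (by linarith)
      refine this.congr fun k => ?_
      congr 1; ring
    rw [mul_zero] at this
    exact this.eventually (gt_mem_nhds (by norm_num))
  have hs0 : Tendsto (fun k : ℝ => c₂ * (s0 b k : ℝ)) atTop atTop := by
    refine Tendsto.const_mul_atTop hc₂ ?_
    refine tendsto_atTop_mono' _ ?_ tendsto_log_sq
    filter_upwards [eventually_ge_atTop (1 : ℝ)] with k hk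
    refine le_trans ?_ (s0_ge b k)
    have : 1 ≤ k ^ (1 - b) := Real.one_le_rpow hk (by linarith)
    nlinarith [sq_nonneg (Real.log k)]
  filter_upwards [hsmall, eventually_s0_le hb, eventually_ge_atTop (1 : ℝ),
    eventually_ge_atTop (C₁ : ℝ), hs0.eventually_ge_atTop 2,
    Real.tendsto_log_atTop.eventually_ge_atTop 1,
    Real.tendsto_log_atTop.eventually_ge_atTop (2 * A / c),
    tendsto_log_sq.eventually_ge_atTop (4 * Real.log 3 / c)] with k h1 h2 h3 h4 h5 h6 h7 h8 j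
  have hk0 : 0 < k := by linarith
  set L := Real.log k with hL
  have hkb : 0 < k ^ (b - 1) := Real.rpow_pos_of_pos hk0 _
  set s : ℝ := (s0 b k : ℝ) with hs
  have hsnn : 0 ≤ s := Nat.cast_nonneg _
  set q : ℝ := c₁ * k ^ (b - 1) with hq
  have hq0 : 0 < q := by positivity
  have hbase : 0 ≤ 1 - q := by linarith
  set P : ℝ := 2 ^ j with hP
  have hP1 : 1 ≤ P := one_le_pow₀ (by norm_num)
  have hjP : (j : ℝ) + 1 ≤ P := by
    have : j + 1 ≤ 2 ^ j := Nat.succ_le_of_lt Nat.lt_two_pow_self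
    calc (j : ℝ) + 1 = ((j + 1 : ℕ) : ℝ) := by push_cast; ring
      _ ≤ ((2 ^ j : ℕ) : ℝ) := by exact_mod_cast this
      _ = P := by push_cast; rfl
  have hpow : (1 - q) ^ ⌊c₂ * (s * P)⌋₊ ≤ Real.exp (-c * L ^ 2 * P) := by
    have e1 : 1 - q ≤ Real.exp (-q) := by
      have := Real.add_one_le_exp (-q); linarith
    calc (1 - q) ^ ⌊c₂ * (s * P)⌋₊ ≤ Real.exp (-q) ^ ⌊c₂ * (s * P)⌋₊ :=
          pow_le_pow_left₀ hbase e1 _
      _ = Real.exp (-(⌊c₂ * (s * P)⌋₊ * q)) := by rw [← Real.exp_nat_mul]; ring_nf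
      _ ≤ Real.exp (-c * L ^ 2 * P) := by
        rw [Real.exp_le_exp]
        have e2 : c₂ * (s * P) / 2 ≤ ⌊c₂ * (s * P)⌋₊ := by
          have := Nat.lt_floor_add_one (c₂ * (s * P))
          have : 2 ≤ c₂ * (s * P) := by nlinarith
          linarith
        have e3 : L ^ 2 ≤ k ^ (b - 1) * s := log_sq_le hk0
        have e4 : c * L ^ 2 * P ≤ c₂ * (s * P) / 2 * q := by
          have : c₂ * (s * P) / 2 * q = c * (k ^ (b - 1) * s) * P := by rw [hc, hq]; ring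
          rw [this]
          gcongr
        have e5 : c₂ * (s * P) / 2 * q ≤ ⌊c₂ * (s * P)⌋₊ * q := by gcongr
        linarith
  have hcard : (s + 1) ^ (C₁ * (2 ^ j + 1)) ≤ Real.exp (2 * C₁ * L * P) := by
    calc (s + 1) ^ (C₁ * (2 ^ j + 1)) ≤ k ^ (C₁ * (2 ^ j + 1)) :=
          pow_le_pow_left₀ (by positivity) h2 _
      _ = Real.exp ((C₁ * (P + 1)) * L) := by
          rw [← Real.exp_log (pow_pos hk0 _), Real.log_pow, hL, hP]; push_cast; ring_nf
      _ ≤ _ := by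
          rw [Real.exp_le_exp]
          have : 0 ≤ (C₁ : ℝ) * L := by positivity
          nlinarith
  have hwt : ((C₁ : ℝ) * (s * P)) ^ C₂ ≤ Real.exp (3 * C₂ * L * P) := by
    have e1 : (C₁ : ℝ) * (s * P) ≤ Real.exp (3 * L * P) := by
      have hPe : P ≤ Real.exp P := by have := Real.add_one_le_exp P; linarith
      calc (C₁ : ℝ) * (s * P) ≤ k * (k * Real.exp P) := by
            have : s ≤ k := by linarith
            gcongr
        _ = Real.exp (L + (L + P)) := by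
            rw [Real.exp_add, Real.exp_add, Real.exp_log hk0]
        _ ≤ _ := by
            rw [Real.exp_le_exp]
            nlinarith
    calc ((C₁ : ℝ) * (s * P)) ^ C₂ ≤ Real.exp (3 * L * P) ^ C₂ :=
          pow_le_pow_left₀ (by positivity) e1 _
      _ = _ := by rw [← Real.exp_nat_mul]; ring_nf
  constructor
  · unfold pkTerm; positivity
  have h3exp : (3 : ℝ) ≤ Real.exp (c / 4 * L ^ 2 * P) := by
    have e1 : Real.log 3 ≤ c / 4 * L ^ 2 * P := by
      rw [div_le_iff₀ hc0] at h8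
      have : 0 ≤ c / 4 * L ^ 2 := by positivity
      nlinarith
    calc (3 : ℝ) = Real.exp (Real.log 3) := (Real.exp_log (by norm_num)).symm
      _ ≤ _ := Real.exp_le_exp.2 e1
  calc pkTerm b c₁ c₂ C₁ C₂ k j
      = ((C₁ : ℝ) * (s * P)) ^ C₂ * (s + 1) ^ (C₁ * (2 ^ j + 1)) *
          (3 * (1 - q) ^ ⌊c₂ * (s * P)⌋₊) := rfl
    _ ≤ Real.exp (3 * C₂ * L * P) * Real.exp (2 * C₁ * L * P) *
          (Real.exp (c / 4 * L ^ 2 * P) * Real.exp (-c * L ^ 2 * P)) := by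
        gcongr
    _ = Real.exp (A * L * P - 3 * c / 4 * L ^ 2 * P) := by
        rw [← Real.exp_add, ← Real.exp_add, ← Real.exp_add, hA]; ring_nf
    _ ≤ Real.exp (-(c₁ * c₂ / 8) * L ^ 2 * (j + 1)) := by
        rw [Real.exp_le_exp]
        have e1 : A ≤ c / 2 * L := by
          rw [div_le_iff₀ hc0] at h7; linarith
        have e2 : A * L * P ≤ c / 2 * L ^ 2 * P := by
          have : A * L ≤ c / 2 * L * L := by gcongr
          have : A * L * P ≤ c / 2 * L * L * P := by gcongr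
          calc _ ≤ _ := this
            _ = _ := by ring
        have e3 : c / 4 * L ^ 2 * (j + 1) ≤ c / 4 * L ^ 2 * P := by gcongr
        have e4 : c₁ * c₂ / 8 = c / 4 := by rw [hc]; ring
        rw [e4]
        nlinarith
    _ = _ := by
        rw [← Real.exp_nat_mul]; push_cast; ring_nf

/-- **the sum over the scales** -/
theorem tsum_pkTerm_le {b c₁ c₂ : ℝ} (hb : 0 < b) (hb1 : b < 1) (hc₁ : 0 < c₁) (hc₂ : 0 < c₂)
    (C₁ C₂ : ℕ) :
    ∀ᶠ k : ℝ in atTop,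
      ∑' j : ℕ, ENNReal.ofReal (pkTerm b c₁ c₂ C₁ C₂ k j) ≤
        ENNReal.ofReal (2 * Real.exp (-(c₁ * c₂ / 8) * (Real.log k) ^ 2)) := by
  have hc : 0 < c₁ * c₂ / 8 := by positivity
  have hq : Tendsto (fun k : ℝ => Real.exp (-(c₁ * c₂ / 8) * (Real.log k) ^ 2)) atTop (𝓝 0) := by
    refine Real.tendsto_exp_atBot.comp ?_
    exact tendsto_log_sq.const_mul_atTop_of_neg (by linarith)
  have hq2 := hq.eventually (gt_mem_nhds (show (0 : ℝ) < 1 / 2 by norm_num))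
  filter_upwards [pkTerm_le hb hb1 hc₁ hc₂ C₁ C₂, hq2] with k h1 h2
  set q := Real.exp (-(c₁ * c₂ / 8) * (Real.log k) ^ 2) with hqd
  have hq0 : 0 < q := Real.exp_pos _
  have hs : HasSum (fun j : ℕ => q ^ (j + 1)) (q * (1 - q)⁻¹) := by
    have := (hasSum_geometric_of_lt_one hq0.le (by linarith)).mul_left q
    refine this.congr_fun ?_ |> fun h => h
    intro j; ring
  calc ∑' j : ℕ, ENNReal.ofReal (pkTerm b c₁ c₂ C₁ C₂ k j)
      ≤ ∑' j : ℕ, ENNReal.ofReal (q ^ (j + 1)) :=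
        ENNReal.tsum_le_tsum fun j => ENNReal.ofReal_le_ofReal (h1 j).2
    _ = ENNReal.ofReal (q * (1 - q)⁻¹) := by
        rw [← ENNReal.ofReal_tsum_of_nonneg (fun j => by positivity) hs.summable, hs.tsum_eq]
    _ ≤ _ := by
        refine ENNReal.ofReal_le_ofReal ?_
        have : (1 - q)⁻¹ ≤ 2 := by
          rw [inv_le_comm₀ (by linarith) (by norm_num)]; linarith
        nlinarith

theorem tendsto_tsum_pkTerm {b c₁ c₂ : ℝ} (hb : 0 < b) (hb1 : b < 1) (hc₁ : 0 < c₁) (hc₂ : 0 < c₂)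
    (C₁ C₂ : ℕ) :
    Tendsto (fun k : ℝ => ∑' j : ℕ, ENNReal.ofReal (pkTerm b c₁ c₂ C₁ C₂ k j)) atTop (𝓝 0) := by
  have hq : Tendsto (fun k : ℝ => ENNReal.ofReal
      (2 * Real.exp (-(c₁ * c₂ / 8) * (Real.log k) ^ 2))) atTop (𝓝 0) := by
    have h1 : Tendsto (fun k : ℝ => 2 * Real.exp (-(c₁ * c₂ / 8) * (Real.log k) ^ 2))
        atTop (𝓝 (2 * 0)) := by
      refine Tendsto.const_mul _ ?_
      refine Real.tendsto_exp_atBot.comp ?_
      have hc : 0 < c₁ * c₂ / 8 := by positivity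
      exact tendsto_log_sq.const_mul_atTop_of_neg (by linarith)
    rw [mul_zero] at h1
    have := ENNReal.tendsto_ofReal h1
    rwa [ENNReal.ofReal_zero] at this
  exact tendsto_of_tendsto_of_tendsto_of_le_of_le' tendsto_const_nhds hq
    (Eventually.of_forall fun _ => zero_le) (tsum_pkTerm_le hb hb1 hc₁ hc₂ C₁ C₂)

end Vale.Agent.P108.Por
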