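import Vale.Agent.P108.Por.Grid

/-!
# Mean porosity lemma, grid free form
-/

open MeasureTheory Set

namespace Vale.Agent.P108.Por

lemma floor_half {y y' : ℝ} (e : ℤ) (h : ⌊y⌋ = ⌊y'⌋) : ⌊(y - e) / 2⌋ = ⌊(y' - e) / 2⌋ := by
  set k := ⌊(y' - e) / 2⌋ with hk
  have h1 : (k : ℝ) ≤ (y' - e) / 2 := Int.floor_le _
  have h2 : (y' - e) / 2 < k + 1 := Int.lt_floor_add_one _
  rw [Int.floor_eq_iff]
  constructor
  · have h3 : ((2 * k + e : ℤ) : ℝ) ≤ y' := by push_cast; linarith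
    have h4 : 2 * k + e ≤ ⌊y'⌋ := Int.le_floor.2 h3
    rw [← h] at h4
    have h5 : ((2 * k + e : ℤ) : ℝ) ≤ y := Int.le_floor.1 h4
    push_cast at h5; linarith
  · have h3 : y' < ((2 * k + 2 + e : ℤ) : ℝ) := by push_cast; linarith
    have h4 : ⌊y'⌋ < 2 * k + 2 + e := Int.floor_lt.2 h3
    rw [← h] at h4
    have h5 : y < ((2 * k + 2 + e : ℤ) : ℝ) := Int.floor_lt.1 h4
    push_cast at h5; linarith

/-- The standard grid. -/
def σ0 : ℕ → ℝ := fun _ => 0

/-- The grid shifted by one third. -/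
noncomputable def σ1 : ℕ → ℝ := fun m => (-1) ^ m / 3

lemma nested_σ0 : Nested σ0 := by
  intro m t t' h
  have := floor_half 0 h
  simp only [cidx, σ0, Int.cast_zero] at this ⊢
  convert this using 2 <;> ring

lemma nested_σ1 : Nested σ1 := by
  intro m t t' h
  have := floor_half ((-1) ^ m) h
  simp only [σ1, Int.cast_pow, Int.cast_neg, Int.cast_one] at this
  simp only [cidx, σ1]
  convert this using 2 <;> ring

lemma near_int {σ : ℕ → ℝ} {m : ℕ} {t s ℓ : ℝ} (h : |s - t| ≤ ℓ) (hne : cidx σ m s ≠ cidx σ m t) :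
    ∃ p : ℤ, |2 ^ m * t - σ m - p| ≤ 2 ^ m * ℓ := by
  have h2 : (0 : ℝ) < 2 ^ m := by positivity
  have hl : |(2 ^ m * s - σ m) - (2 ^ m * t - σ m)| ≤ 2 ^ m * ℓ := by
    have : (2 ^ m * s - σ m) - (2 ^ m * t - σ m) = 2 ^ m * (s - t) := by ring
    rw [this, abs_mul, abs_of_pos h2]
    exact mul_le_mul_of_nonneg_left h h2.le
  unfold cidx at hne
  set x := 2 ^ m * s - σ m
  set y := 2 ^ m * t - σ m
  rcases lt_or_gt_of_ne hne with hlt | hlt
  · refine ⟨⌊y⌋, ?_⟩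
    have h3 : (⌊y⌋ : ℝ) ≤ y := Int.floor_le y
    have h4 : x < ⌊y⌋ := Int.floor_lt.1 hlt
    rw [abs_of_nonneg (by linarith)]
    have := abs_le.1 hl
    linarith [this.1]
  · refine ⟨⌊x⌋, ?_⟩
    have h3 : (⌊x⌋ : ℝ) ≤ x := Int.floor_le x
    have h4 : y < ⌊x⌋ := Int.floor_lt.1 hlt
    rw [abs_of_nonpos (by linarith)]
    have := abs_le.1 hl
    linarith [this.2]

/-- A short interval around `t` lies in the cell of `t` in one of the two grids. -/
lemma grid_choice {m : ℕ} {t ℓ : ℝ} (h : 2 ^ m * ℓ < 1 / 6) :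
    (Icc (t - ℓ) (t + ℓ) ⊆ cell σ0 m (cidx σ0 m t)) ∨
    (Icc (t - ℓ) (t + ℓ) ⊆ cell σ1 m (cidx σ1 m t)) := by
  by_contra hcon
  push Not at hcon
  obtain ⟨h0, h1⟩ := hcon
  obtain ⟨s, hs, hs'⟩ := Set.not_subset.1 h0
  obtain ⟨s1, hs1, hs1'⟩ := Set.not_subset.1 h1
  have e0 : |s - t| ≤ ℓ := abs_le.2 ⟨by linarith [hs.1], by linarith [hs.2]⟩
  have e1 : |s1 - t| ≤ ℓ := abs_le.2 ⟨by linarith [hs1.1], by linarith [hs1.2]⟩
  obtain ⟨p, hp⟩ := near_int e0 hs'
  obtain ⟨q, hq⟩ := near_int e1 hs1'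
  have e2 := abs_le.1 (hp.trans h.le)
  have e2' := hp.trans_lt h
  have e3' := hq.trans_lt h
  rw [abs_lt] at e2' e3'
  simp only [σ0, σ1] at e2' e3'
  rcases neg_one_pow_eq_or ℝ m with hm | hm
  · rw [hm] at e3'
    have a1 : (p : ℝ) - q < 2 / 3 := by linarith [e2'.1, e3'.2]
    have a2 : (0 : ℝ) < p - q := by linarith [e2'.2, e3'.1]
    have a3 : ((p - q : ℤ) : ℝ) < 1 := by push_cast; linarith
    have a4 : ((0 : ℤ) : ℝ) < ((p - q : ℤ) : ℝ) := by push_cast; linarith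
    have a5 : p - q < 1 := by exact_mod_cast a3
    have a6 : 0 < p - q := by exact_mod_cast a4
    omega
  · rw [hm] at e3'
    have a1 : (q : ℝ) - p < 2 / 3 := by linarith [e2'.2, e3'.1]
    have a2 : (0 : ℝ) < q - p := by linarith [e2'.1, e3'.2]
    have a3 : ((q - p : ℤ) : ℝ) < 1 := by push_cast; linarith
    have a4 : ((0 : ℤ) : ℝ) < ((q - p : ℤ) : ℝ) := by push_cast; linarith
    have a5 : q - p < 1 := by exact_mod_cast a3
    have a6 : 0 < q - p := by exact_mod_cast a4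
    omega

lemma exists_gen {ℓ : ℝ} (h0 : 0 < ℓ) (h1 : ℓ ≤ 1 / 12) :
    ∃ m : ℕ, 2 ^ m * ℓ < 1 / 6 ∧ 1 / 12 ≤ 2 ^ m * ℓ := by
  classical
  have hex : ∃ m : ℕ, 1 / 12 ≤ 2 ^ m * ℓ := by
    obtain ⟨m, hm⟩ := pow_unbounded_of_one_lt (1 / (12 * ℓ)) (one_lt_two : (1 : ℝ) < 2)
    refine ⟨m, ?_⟩
    rw [div_lt_iff₀ (by positivity)] at hm
    linarith
  refine ⟨Nat.find hex, ?_, Nat.find_spec hex⟩
  rcases Nat.eq_zero_or_pos (Nat.find hex) with hz | hpos
  · rw [hz]; norm_num; linarith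
  · obtain ⟨m, hm⟩ : ∃ m, Nat.find hex = m + 1 := ⟨Nat.find hex - 1, by omega⟩
    have := Nat.find_min hex (m := m) (by omega)
    rw [hm, pow_succ]
    push Not at this
    linarith

lemma gen_mono {N g : ℕ} {m : ℕ → ℕ} (hm : ∀ i, i + 1 < N → m i + g ≤ m (i + 1)) {i : ℕ} :
    ∀ k, i + 1 + k < N → m i + g ≤ m (i + 1 + k) := by
  intro k
  induction k with
  | zero => intro h; exact hm i h
  | succ k ih =>
    intro h
    have h1 := ih (by omega)
    have h2 := hm (i + 1 + k) (by omega)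
    have : i + 1 + (k + 1) = i + 1 + k + 1 := by ring
    rw [this]; omega

lemma has_of_finset {σ : ℕ → ℝ} {S : Set ℝ} {h : ℝ} {g N : ℕ} {t : ℝ} {m : ℕ → ℕ}
    (hm : ∀ i, i + 1 < N → m i + g ≤ m (i + 1)) (n : ℕ) : ∀ (I : Finset ℕ) (m0 : ℕ),
    I.card = n → (∀ i ∈ I, i < N ∧ Marked σ S h (m i) (cidx σ (m i) t) ∧ m0 ≤ m i) →
    Has σ S h g n m0 t := by
  induction n with
  | zero => intro I m0 _ _; trivial
  | succ n ih =>
    intro I m0 hc hI
    have hne : I.Nonempty := by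
      rw [← Finset.card_pos]; omega
    set i := I.min' hne with hi
    have hiI : i ∈ I := I.min'_mem hne
    refine ⟨m i, (hI i hiI).2.2, (hI i hiI).2.1, ?_⟩
    apply ih (I.erase i) (m i + g)
    · rw [Finset.card_erase_of_mem hiI, hc]; rfl
    · intro j hj
      have hjI := Finset.mem_of_mem_erase hj
      have hlt : i < j := lt_of_le_of_ne (I.min'_le j hjI) (Finset.ne_of_mem_erase hj).symm
      refine ⟨(hI j hjI).1, (hI j hjI).2.1, ?_⟩
      obtain ⟨k, rfl⟩ : ∃ k, j = i + 1 + k := ⟨j - (i + 1), by omega⟩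
      exact gen_mono hm k (hI _ hjI).1

/-- **Mean porosity lemma.**  If every point of `S` has `N` separated scales at which a
definite proportion `h` of the neighbourhood is an interval missing `S`, then the measure of
`S` decays like `(1 - h / 24) ^ (N / 2)`. -/
theorem porosity {S : Set ℝ} (hS : S ⊆ Ico (0 : ℝ) 1) {h : ℝ} (h0 : 0 < h) (h1 : h ≤ 1)
    {g : ℕ} (hg : 48 ≤ h * 2 ^ g) (N : ℕ)
    (H : ∀ t ∈ S, ∃ ℓ : ℕ → ℝ, (∀ i < N, 0 < ℓ i ∧ ℓ i ≤ 1 / 12) ∧
      (∀ i, i + 1 < N → ℓ (i + 1) ≤ ℓ i / 2 ^ (g + 1)) ∧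
      ∀ i < N, ∃ a b, t - ℓ i ≤ a ∧ b ≤ t + ℓ i ∧ h * ℓ i ≤ b - a ∧ Disjoint (Ioo a b) S) :
    volume S ≤ ENNReal.ofReal (3 * (1 - h / 24) ^ (N / 2)) := by
  classical
  have hcover : S ⊆
      ({t | t ∈ S ∧ t ∈ cell σ0 0 0 ∧ Has σ0 S (h / 12) g (N / 2) 0 t} ∪
       {t | t ∈ S ∧ t ∈ cell σ1 0 0 ∧ Has σ1 S (h / 12) g (N / 2) 0 t}) ∪
       {t | t ∈ S ∧ t ∈ cell σ1 0 (-1) ∧ Has σ1 S (h / 12) g (N / 2) 0 t} := by
    intro t ht
    obtain ⟨ℓ, hℓ1, hℓ2, hℓ3⟩ := H t ht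
    have hm : ∀ i : ℕ, ∃ m : ℕ, i < N → (2 ^ m * ℓ i < 1 / 6 ∧ 1 / 12 ≤ 2 ^ m * ℓ i) := by
      intro i
      by_cases hi : i < N
      · obtain ⟨m, hm⟩ := exists_gen (hℓ1 i hi).1 (hℓ1 i hi).2
        exact ⟨m, fun _ => hm⟩
      · exact ⟨0, fun h => absurd h hi⟩
    choose m hm using hm
    have hsep : ∀ i, i + 1 < N → m i + g ≤ m (i + 1) := by
      intro i hi
      have a1 := (hm i (by omega)).1
      have a2 := (hm (i + 1) hi).2
      have a3 := hℓ2 i hi
      by_contra hcon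
      push Not at hcon
      have b1 : (2 : ℝ) ^ (m (i + 1)) ≤ 2 ^ (m i + g) / 1 := by
        rw [div_one]; exact pow_le_pow_right₀ (by norm_num) hcon.le
      have b2 : (2 : ℝ) ^ (m (i + 1)) * ℓ (i + 1) ≤ 2 ^ (m i + g) * (ℓ i / 2 ^ (g + 1)) := by
        rw [div_one] at b1
        exact mul_le_mul b1 a3 (hℓ1 (i + 1) hi).1.le (by positivity)
      have b3 : (2 : ℝ) ^ (m i + g) * (ℓ i / 2 ^ (g + 1)) = 2 ^ (m i) * ℓ i / 2 := by
        rw [pow_add, pow_succ]; field_simp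
      rw [b3] at b2
      linarith
    have hmark : ∀ i < N, Marked σ0 S (h / 12) (m i) (cidx σ0 (m i) t) ∨
        Marked σ1 S (h / 12) (m i) (cidx σ1 (m i) t) := by
      intro i hi
      obtain ⟨a, b, ha, hb, hab, hd⟩ := hℓ3 i hi
      have hsub : Ioo a b ⊆ Icc (t - ℓ i) (t + ℓ i) := by
        intro s hs; exact ⟨ha.trans hs.1.le, hs.2.le.trans hb⟩
      have hlen : h / 12 / 2 ^ (m i) ≤ b - a := by
        refine le_trans ?_ hab
        have h2 : (0 : ℝ) < 2 ^ (m i) := by positivity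
        rw [div_le_iff₀ h2]
        have := (hm i hi).2
        nlinarith
      rcases grid_choice (t := t) (hm i hi).1 with hc | hc
      · exact Or.inl ⟨a, b, hsub.trans hc, hlen, hd⟩
      · exact Or.inr ⟨a, b, hsub.trans hc, hlen, hd⟩
    let I0 : Finset ℕ := (Finset.range N).filter
      fun i => Marked σ0 S (h / 12) (m i) (cidx σ0 (m i) t)
    let I1 : Finset ℕ := (Finset.range N).filter
      fun i => Marked σ1 S (h / 12) (m i) (cidx σ1 (m i) t)
    have hun : Finset.range N ⊆ I0 ∪ I1 := by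
      intro i hi
      have hiN := Finset.mem_range.1 hi
      rcases hmark i hiN with hh | hh
      · exact Finset.mem_union_left _ (Finset.mem_filter.2 ⟨hi, hh⟩)
      · exact Finset.mem_union_right _ (Finset.mem_filter.2 ⟨hi, hh⟩)
    have hcard : N ≤ I0.card + I1.card := by
      calc N = (Finset.range N).card := (Finset.card_range N).symm
        _ ≤ (I0 ∪ I1).card := Finset.card_le_card hun
        _ ≤ _ := Finset.card_union_le _ _
    have htI := hS ht
    rcases (by omega : N / 2 ≤ I0.card ∨ N / 2 ≤ I1.card) with hc | hc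
    · obtain ⟨J, hJ, hJc⟩ := Finset.exists_subset_card_eq hc
      left; left
      refine ⟨ht, ?_, has_of_finset hsep (N / 2) J 0 hJc fun i hi => ?_⟩
      · change cidx σ0 0 t = 0
        simp only [cidx, σ0, pow_zero, one_mul, sub_zero]
        rw [Int.floor_eq_iff]; push_cast
        exact ⟨htI.1, by linarith [htI.2]⟩
      · have := Finset.mem_filter.1 (hJ hi)
        exact ⟨Finset.mem_range.1 this.1, this.2, Nat.zero_le _⟩
    · obtain ⟨J, hJ, hJc⟩ := Finset.exists_subset_card_eq hc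
      have hh : Has σ1 S (h / 12) g (N / 2) 0 t :=
        has_of_finset hsep (N / 2) J 0 hJc fun i hi => by
          have := Finset.mem_filter.1 (hJ hi)
          exact ⟨Finset.mem_range.1 this.1, this.2, Nat.zero_le _⟩
      by_cases h13 : (1 : ℝ) / 3 ≤ t
      · left; right
        refine ⟨ht, ?_, hh⟩
        change cidx σ1 0 t = 0
        simp only [cidx, σ1, pow_zero, one_mul]
        rw [Int.floor_eq_iff]; push_cast
        exact ⟨by linarith [htI.1], by linarith [htI.2]⟩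
      · right
        refine ⟨ht, ?_, hh⟩
        push Not at h13
        change cidx σ1 0 t = -1
        simp only [cidx, σ1, pow_zero, one_mul]
        rw [Int.floor_eq_iff]; push_cast
        exact ⟨by linarith [htI.1], by linarith [htI.2]⟩
  have hg' : 4 ≤ h / 12 * 2 ^ g := by linarith
  have key : ∀ (σ : ℕ → ℝ), Nested σ → ∀ j : ℤ,
      volume {t | t ∈ S ∧ t ∈ cell σ 0 j ∧ Has σ S (h / 12) g (N / 2) 0 t} ≤
        ENNReal.ofReal ((1 - h / 24) ^ (N / 2)) := by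
    intro σ hσ j
    have := volume_has_le hσ (S := S) (h := h / 12) (by linarith) (by linarith) hg' (N / 2) 0 j
    rw [volume_cell] at this
    simp only [pow_zero, div_one, ENNReal.ofReal_one, mul_one] at this
    refine this.trans (le_of_eq ?_)
    congr 2; ring
  calc volume S ≤ _ := measure_mono hcover
    _ ≤ _ + _ := measure_union_le _ _
    _ ≤ (_ + _) + _ := by gcongr; exact measure_union_le _ _
    _ ≤ (ENNReal.ofReal ((1 - h / 24) ^ (N / 2)) + ENNReal.ofReal ((1 - h / 24) ^ (N / 2))) +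
          ENNReal.ofReal ((1 - h / 24) ^ (N / 2)) := by
        gcongr
        · exact key σ0 nested_σ0 0
        · exact key σ1 nested_σ1 0
        · exact key σ1 nested_σ1 (-1)
    _ = ENNReal.ofReal (3 * (1 - h / 24) ^ (N / 2)) := by
        have h3 : (0 : ℝ) ≤ (1 - h / 24) ^ (N / 2) := pow_nonneg (by linarith) _
        rw [← ENNReal.ofReal_add h3 h3, ← ENNReal.ofReal_add (by positivity) h3]
        congr 1; ring

end Vale.Agent.P108.Por
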