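import Vale.Agent.P108.Por.Plane
import Vale.Agent.P108.Por.PeakSum
import Vale.Agent.P108.H786.Book
import Vale.Agent.P108.Cmb.Pat
import Vale.Agent.P108.Cmb.Zones

/-!
# P108: the mass of the zones of the peaks

A peak of radius `R` at the site `m` comes with data `(n, i', j', Π)`: `m ≤ n < m + R`,
`m - R ≤ i' ≤ m`, `m ≤ j' < m + 2R` and a pattern `Π ⊆ [i', j'+1)` made of zones of length `≥ s`.
-/

open MeasureTheory Filter Set Topology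

open scoped ENNReal

namespace Vale.Agent.P108.Por

open Vale.Agent.P108 Vale.Agent.P108.Dyn Vale.Agent.P108.H786 Vale.Agent.P108.Area P108C

/-- the index set of the peaks of radius `R` at the site `m` -/
noncomputable def pkIdx (s R : ℕ) (m : ℤ) : Finset (Σ _ : ℤ × ℤ × ℤ, Finset ℤ) :=
  (Finset.Ico m (m + R) ×ˢ Finset.Icc (m - R) m ×ˢ Finset.Ico m (m + 2 * R)).sigma
    fun x => patterns s x.2.1 (x.2.2 + 1)

lemma mem_pkIdx {s R : ℕ} {m n i j : ℤ} {Q : Finset ℤ} :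
    (⟨(n, i, j), Q⟩ : Σ _ : ℤ × ℤ × ℤ, Finset ℤ) ∈ pkIdx s R m ↔
      (m ≤ n ∧ n < m + R) ∧ (m - R ≤ i ∧ i ≤ m) ∧ (m ≤ j ∧ j < m + 2 * R) ∧
        LongZones s i (j + 1) Q := by
  simp only [pkIdx, Finset.mem_sigma, Finset.mem_product, Finset.mem_Ico, Finset.mem_Icc,
    mem_patterns]
  tauto

theorem card_pkIdx {s R : ℕ} (hs : 1 ≤ s) (m : ℤ) {P : ℕ} (hR : R = s * P) :
    (pkIdx s R m).card ≤ R * ((R + 1) * (2 * R)) * (s + 1) ^ (6 * P + 4) := by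
  classical
  unfold pkIdx
  rw [Finset.card_sigma]
  have h1 : ∀ x ∈ Finset.Ico m (m + R) ×ˢ Finset.Icc (m - R) m ×ˢ Finset.Ico m (m + 2 * R),
      (patterns s x.2.1 (x.2.2 + 1)).card ≤ (s + 1) ^ (6 * P + 4) := by
    rintro ⟨n, i, j⟩ hx
    simp only [Finset.mem_product, Finset.mem_Ico, Finset.mem_Icc] at hx
    obtain ⟨-, ⟨h2, h3⟩, h4, h5⟩ := hx
    obtain ⟨l, hl⟩ : ∃ l : ℕ, j + 1 = i + l := ⟨(j + 1 - i).toNat, by omega⟩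
    simp only
    rw [hl]
    refine (card_patterns hs).trans (Nat.pow_le_pow_right (by omega) ?_)
    have hl2 : l ≤ 3 * R := by omega
    have hl3 : l / s ≤ 3 * P := by
      calc l / s ≤ (3 * R) / s := Nat.div_le_div_right hl2
        _ = 3 * P := by
          rw [hR, show 3 * (s * P) = s * (3 * P) by ring]
          exact Nat.mul_div_cancel_left _ (by omega)
    omega
  refine (Finset.sum_le_sum h1).trans (le_of_eq ?_)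
  rw [Finset.sum_const, smul_eq_mul, Finset.card_product, Finset.card_product, Int.card_Ico,
    Int.card_Icc, Int.card_Ico]
  congr 2
  · omega
  · congr 1 <;> omega

/-- **mass of a periodic event contained in the union of its pattern pieces**, from the bound of the
pieces on the lines `x_{m-1} = c` -/
theorem peak_mass_le {k b c₁ : ℝ} {j R : ℕ} {m : ℤ} (hk : 1 < k) (hR : R = H786.s0 b k * 2 ^ j)
    {A : Set (ℝ × ℝ)} (hA : Per A) (hm : MeasurableSet A)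
    (B : ℤ → ℤ → ℤ → Finset ℤ → Set (ℝ × ℝ))
    (hAB : ∀ z ∈ A, ∃ n i' j' Q, m ≤ n ∧ n < m + R ∧ m - R ≤ i' ∧ i' ≤ m ∧ m ≤ j' ∧
      j' < m + 2 * R ∧ LongZones (H786.s0 b k) i' (j' + 1) Q ∧ z ∈ B n i' j' Q)
    (hc₁ : 0 < c₁) (h1 : c₁ * k ^ (b - 1) ≤ 1)
    (h : ∀ n i' j' Q, m ≤ n → n < m + R → m - R ≤ i' → i' ≤ m → m ≤ j' → j' < m + 2 * R →
      LongZones (H786.s0 b k) i' (j' + 1) Q → ∀ c ∈ Ico (0 : ℝ) 1,
      volume {t | t ∈ Ico (0 : ℝ) 1 ∧ pt k m (c, t) ∈ B n i' j' Q} ≤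
        ENNReal.ofReal (3 * (1 - (c₁ * k ^ (b - 1)) / 24) ^ (R / 48 / 2))) :
    mQ A ≤ ENNReal.ofReal (pkTerm b (c₁ / 24) (1 / 96) 6 3 k j) := by
  have hk0 : 0 < k := by linarith
  have hs : 1 ≤ H786.s0 b k := by
    unfold H786.s0
    rw [Nat.one_le_ceil_iff]
    have : 0 < Real.log k := Real.log_pos hk
    positivity
  have key := mQ_le_of_line_union (k := k) (m := m) hA hm (pkIdx (H786.s0 b k) R m)
    (fun x => B x.1.1 x.1.2.1 x.1.2.2 x.2) (fun z hz => by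
      obtain ⟨n, i', j', Q, h1, h2, h3, h4, h5, h6, h7, h8⟩ := hAB z hz
      exact ⟨⟨(n, i', j'), Q⟩, mem_pkIdx.2 ⟨⟨h1, h2⟩, ⟨h3, h4⟩, ⟨h5, h6⟩, h7⟩, h8⟩)
    (ε := ENNReal.ofReal (3 * (1 - (c₁ * k ^ (b - 1)) / 24) ^ (R / 48 / 2)))
    (fun x hx c hc => by
      obtain ⟨⟨n, i', j'⟩, Q⟩ := x
      obtain ⟨⟨h1, h2⟩, ⟨h3, h4⟩, ⟨h5, h6⟩, h7⟩ := mem_pkIdx.1 hx
      exact h n i' j' Q h1 h2 h3 h4 h5 h6 h7 c hc)
  refine key.trans ?_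
  have hkb : 0 < k ^ (b - 1) := Real.rpow_pos_of_pos hk0 _
  set q : ℝ := c₁ / 24 * k ^ (b - 1) with hq
  have hq' : c₁ * k ^ (b - 1) / 24 = q := by rw [hq]; ring
  rw [hq']
  have hq0 : 0 < q := by positivity
  have hq1 : q ≤ 1 / 24 := by rw [← hq']; linarith
  have hcard : ((pkIdx (H786.s0 b k) R m).card : ℝ) ≤
      (6 * (H786.s0 b k * 2 ^ j : ℝ)) ^ 3 * ((H786.s0 b k : ℝ) + 1) ^ (6 * (2 ^ j + 1)) := by
    have h1 := card_pkIdx hs m hR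
    have hR1 : 1 ≤ R := by rw [hR]; exact Nat.one_le_iff_ne_zero.2 (by positivity)
    have h2 : R * ((R + 1) * (2 * R)) * (H786.s0 b k + 1) ^ (6 * 2 ^ j + 4) ≤
        (6 * R) ^ 3 * (H786.s0 b k + 1) ^ (6 * (2 ^ j + 1)) := by
      refine Nat.mul_le_mul ?_ (Nat.pow_le_pow_right (by omega) (by omega))
      nlinarith [Nat.mul_le_mul hR1 hR1, Nat.mul_le_mul (Nat.mul_le_mul hR1 (le_refl R)) (le_refl R)]
    have h3 := h1.trans h2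
    have h4 : ((pkIdx (H786.s0 b k) R m).card : ℝ) ≤
        (((6 * R) ^ 3 * (H786.s0 b k + 1) ^ (6 * (2 ^ j + 1)) : ℕ) : ℝ) := by exact_mod_cast h3
    refine h4.trans (le_of_eq ?_)
    rw [hR]
    push_cast
    ring
  rw [← ENNReal.ofReal_natCast, ← ENNReal.ofReal_mul (Nat.cast_nonneg _)]
  refine ENNReal.ofReal_le_ofReal ?_
  unfold pkTerm
  have e1 : (1 - q) ^ (R / 48 / 2) ≤ (1 - q) ^ ⌊(1 / 96 : ℝ) * (Por.s0 b k * 2 ^ j)⌋₊ := by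
    refine pow_le_pow_of_le_one (by linarith) (by linarith) ?_
    have : (1 / 96 : ℝ) * (Por.s0 b k * 2 ^ j) = ((R : ℕ) : ℝ) / ((96 : ℕ) : ℝ) := by
      rw [hR]; push_cast; change _ = (Por.s0 b k : ℝ) * 2 ^ j / 96; ring
    rw [this, Nat.floor_div_eq_div, Nat.div_div_eq_div_mul]
  have e2 : 0 ≤ (1 - q) := by linarith
  calc ((pkIdx (H786.s0 b k) R m).card : ℝ) * (3 * (1 - q) ^ (R / 48 / 2))
      ≤ ((6 * (H786.s0 b k * 2 ^ j : ℝ)) ^ 3 * ((H786.s0 b k : ℝ) + 1) ^ (6 * (2 ^ j + 1))) *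
          (3 * (1 - q) ^ ⌊(1 / 96 : ℝ) * (Por.s0 b k * 2 ^ j)⌋₊) := by
        gcongr
    _ = _ := by
        simp only [Nat.cast_ofNat]
        rfl

lemma weight_le {b c₁ c₂ k : ℝ} {C₁ C₂ Z : ℕ} (hk : 1 < k) (h1 : c₁ * k ^ (b - 1) ≤ 1) (j : ℕ) :
    ((2 * Z * (H786.s0 b k * 2 ^ j) + 1 : ℕ) : ℝ) * pkTerm b c₁ c₂ C₁ C₂ k j ≤
      pkTerm b c₁ c₂ (C₁ + 2 * Z + 1) (C₂ + 1) k j := by
  have hk0 : 0 < k := by linarith
  have hs : 1 ≤ H786.s0 b k := by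
    unfold H786.s0
    rw [Nat.one_le_ceil_iff]
    have : 0 < Real.log k := Real.log_pos hk
    positivity
  have hs' : (1 : ℝ) ≤ H786.s0 b k := by exact_mod_cast hs
  unfold pkTerm
  change ((2 * Z * (H786.s0 b k * 2 ^ j) + 1 : ℕ) : ℝ) *
      (((C₁ : ℝ) * (H786.s0 b k * 2 ^ j)) ^ C₂ * ((H786.s0 b k : ℝ) + 1) ^ (C₁ * (2 ^ j + 1)) *
        (3 * (1 - c₁ * k ^ (b - 1)) ^ ⌊c₂ * (H786.s0 b k * 2 ^ j)⌋₊)) ≤
      (((C₁ + 2 * Z + 1 : ℕ) : ℝ) * (H786.s0 b k * 2 ^ j)) ^ (C₂ + 1) *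
        ((H786.s0 b k : ℝ) + 1) ^ ((C₁ + 2 * Z + 1) * (2 ^ j + 1)) *
        (3 * (1 - c₁ * k ^ (b - 1)) ^ ⌊c₂ * (H786.s0 b k * 2 ^ j)⌋₊)
  set R : ℝ := H786.s0 b k * 2 ^ j with hR
  have hR1 : 1 ≤ R := by
    have : (1 : ℝ) ≤ 2 ^ j := one_le_pow₀ (by norm_num)
    rw [hR]; nlinarith
  set E : ℝ := 3 * (1 - c₁ * k ^ (b - 1)) ^ ⌊c₂ * R⌋₊ with hE
  have hE0 : 0 ≤ E := by
    have : 0 ≤ 1 - c₁ * k ^ (b - 1) := by linarith
    positivity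
  have hw : ((2 * Z * (H786.s0 b k * 2 ^ j) + 1 : ℕ) : ℝ) = 2 * Z * R + 1 := by
    push_cast; rw [hR]
  rw [hw]
  have e1 : 2 * (Z : ℝ) * R + 1 ≤ ((C₁ + 2 * Z + 1 : ℕ) : ℝ) * R := by
    push_cast
    nlinarith [mul_nonneg (Nat.cast_nonneg (α := ℝ) C₁) (by linarith : (0 : ℝ) ≤ R)]
  have e2 : (C₁ : ℝ) * R ≤ ((C₁ + 2 * Z + 1 : ℕ) : ℝ) * R := by
    refine mul_le_mul_of_nonneg_right ?_ (by linarith)
    push_cast
    have : (0 : ℝ) ≤ Z := Nat.cast_nonneg _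
    linarith
  calc (2 * (Z : ℝ) * R + 1) * (((C₁ : ℝ) * R) ^ C₂ * ((H786.s0 b k : ℝ) + 1) ^ (C₁ * (2 ^ j + 1)) * E)
      ≤ (((C₁ + 2 * Z + 1 : ℕ) : ℝ) * R) * ((((C₁ + 2 * Z + 1 : ℕ) : ℝ) * R) ^ C₂ *
          ((H786.s0 b k : ℝ) + 1) ^ ((C₁ + 2 * Z + 1) * (2 ^ j + 1)) * E) := by
        gcongr
        · linarith
        · omega
    _ = _ := by rw [pow_succ]; ring

/-- **the mass of the zones of the peaks is super-polynomially small** -/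
theorem peak_zone_le {b c₁ c₂ : ℝ} (hb : 0 < b) (hb1 : b < 1) (hc₁ : 0 < c₁) (hc₂ : 0 < c₂)
    (C₁ C₂ Z : ℕ) :
    ∀ᶠ k : ℝ in atTop, ∀ P : ℝ × ℝ → ℤ → ℕ → Prop, EquiP (Tz k) P →
      (∀ j, mQ {z | P z 0 j} ≤ ENNReal.ofReal (pkTerm b c₁ c₂ C₁ C₂ k j)) →
      mQ {z | (0 : ℤ) ∈ zone Z (fun j => H786.s0 b k * 2 ^ j) (P z)} ≤
        ENNReal.ofReal (2 * Real.exp (-(c₁ * c₂ / 8) * (Real.log k) ^ 2)) := by
  have hsmall : ∀ᶠ k : ℝ in atTop, c₁ * k ^ (b - 1) ≤ 1 := by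
    have : Tendsto (fun k : ℝ => c₁ * k ^ (b - 1)) atTop (𝓝 (c₁ * 0)) := by
      refine Tendsto.const_mul _ ?_
      have := tendsto_rpow_neg_atTop (y := 1 - b) (by linarith)
      refine this.congr fun k => ?_
      congr 1; ring
    rw [mul_zero] at this
    exact this.eventually (ge_mem_nhds (by norm_num))
  filter_upwards [tsum_pkTerm_le hb hb1 hc₁ hc₂ (C₁ + 2 * Z + 1) (C₂ + 1), hsmall,
    eventually_gt_atTop (1 : ℝ)] with k h1 h2 h3 P hP h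
  refine (hP.measure_zone_le (mp_Tz k) Z (fun j => H786.s0 b k * 2 ^ j)).trans ?_
  refine le_trans (ENNReal.tsum_le_tsum fun j => ?_) h1
  calc ((2 * Z * (H786.s0 b k * 2 ^ j) + 1 : ℕ) : ℝ≥0∞) * mQ {z | P z 0 j}
      ≤ ENNReal.ofReal ((2 * Z * (H786.s0 b k * 2 ^ j) + 1 : ℕ) : ℝ) *
          ENNReal.ofReal (pkTerm b c₁ c₂ C₁ C₂ k j) := by
        rw [ENNReal.ofReal_natCast]
        gcongr
        exact h j
    _ = ENNReal.ofReal (((2 * Z * (H786.s0 b k * 2 ^ j) + 1 : ℕ) : ℝ) *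
          pkTerm b c₁ c₂ C₁ C₂ k j) := (ENNReal.ofReal_mul (Nat.cast_nonneg _)).symm
    _ ≤ _ := ENNReal.ofReal_le_ofReal (weight_le h3 h2 j)

end Vale.Agent.P108.Por
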