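import Vale.Agent.P108.Por.PeakPat
import Vale.Agent.P108.Por.PeakMass

/-!
# P108: **[PEAK]** from the bound of the one-dimensional slices with a fixed pattern
-/

open MeasureTheory Filter Set Topology

open scoped ENNReal

namespace Vale.Agent.P108.Por

open Vale.Agent.P108 Vale.Agent.P108.Dyn Vale.Agent.P108.H786 Vale.Agent.P108.Area P108C

/-- the bound on the lines `x_0 = x`, pattern `S` fixed, frozen site `0` (`m = 1`) -/
def LineBound : Prop :=
  ∃ c₁ k0 : ℝ, 0 < c₁ ∧ ∀ k ≥ k0, ∀ s ∈ Icc (0 : ℝ) 1, ∀ (R : ℕ) (n i j : ℤ) (S : Finset ℤ)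
    (x : ℝ), Sk.s0 k ≤ R → x ∈ Ico (0 : ℝ) 1 →
      volume {t | t ∈ Ico (0 : ℝ) 1 ∧ Sk.PeakPat k s (ao k (pt k 1 (x, t))) R 1 n i j S} ≤
        ENNReal.ofReal (3 * (1 - (c₁ * k ^ (Sk.cb - 1)) / 24) ^ (R / 48 / 2))

/-- translation: it is enough to consider the frozen site `0` -/
theorem peakLine_of_one (h : LineBound) : Sk.PeakLine := by
  obtain ⟨c₁, k0, hc, h⟩ := h
  refine ⟨c₁, k0, hc, fun k hk s hs R m n i j S c hR hcc => ?_⟩
  refine le_trans (measure_mono ?_) (h k hk s hs R (n - (m - 1)) (i - (m - 1)) (j - (m - 1))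
    (S.map (addRightEmbedding (-(m - 1)))) c hR hcc)
  intro t ht
  exact ⟨ht.1, peakPat_to_one ht.2⟩

/-- **[PEAK] from the lines.** -/
theorem peakBound_of_line (h : Sk.PeakLine) : Sk.PeakBound := by
  obtain ⟨c₁, k0, hc, h⟩ := h
  have hsmall : ∀ᶠ k : ℝ in atTop, c₁ * k ^ (Sk.cb - 1) ≤ 1 := by
    have : Tendsto (fun k : ℝ => c₁ * k ^ (Sk.cb - 1)) atTop (𝓝 (c₁ * 0)) := by
      refine Tendsto.const_mul _ ?_
      have := tendsto_rpow_neg_atTop (y := 49 / 50) (by norm_num)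
      refine this.congr fun k => ?_
      congr 1; norm_num
    rw [mul_zero] at this
    exact this.eventually (ge_mem_nhds (by norm_num))
  obtain ⟨k1, hk1⟩ := eventually_atTop.1 (hsmall.and (eventually_gt_atTop (1 : ℝ)))
  refine ⟨c₁, max k0 k1, hc, fun k hk s hs l => ?_⟩
  obtain ⟨hk2, hk3⟩ := hk1 k (le_trans (le_max_right _ _) hk)
  have hline := h k (le_trans (le_max_left _ _) hk) s hs
  have hs0 : 1 ≤ Sk.s0 k := by
    change 1 ≤ H786.s0 Sk.cb k
    unfold H786.s0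
    rw [Nat.one_le_ceil_iff]
    have : 0 < Real.log k := Real.log_pos hk3
    positivity
  set R : ℕ := Sk.s0 k * 2 ^ l with hR
  have hRs : Sk.s0 k ≤ R := by
    rw [hR]; exact Nat.le_mul_of_pos_right _ (by positivity)
  have hmeas : MeasurableSet {z | ∃ n i j, Sk.Peak k s (ao k z) R 0 n i j} := by
    have e : {z | ∃ n i j, Sk.Peak k s (ao k z) R 0 n i j} =
        ⋃ n : ℤ, ⋃ i : ℤ, ⋃ j : ℤ, {z | Sk.Peak k s (ao k z) R 0 n i j} := by
      ext z; simp only [mem_ofPred_eq, mem_iUnion]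
    rw [e]
    exact MeasurableSet.iUnion fun n => MeasurableSet.iUnion fun i => MeasurableSet.iUnion fun j =>
      measurableSet_peak k s R 0 n i j
  refine peak_mass_le (m := 0) hk3 hR (per_of_ao k fun a => ∃ n i j, Sk.Peak k s a R 0 n i j)
    hmeas (fun n i j S => {z | Sk.PeakPat k s (ao k z) R 0 n i j S}) ?_ hc hk2 ?_
  · rintro z ⟨n, i, j, S, hS, hp⟩
    have h1 := hp.hmn
    have h2 := hp.obj
    have h3 := hp.i1
    have h4 := hp.i2
    have h5 := hp.j1
    have h6 := hp.j2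
    have h7 : (Sk.cP : ℤ) = 1000000 := rfl
    rw [h7] at h2
    exact ⟨n, i, j, S, h1, by omega, by omega, by omega, by omega, by omega, mem_patterns.1 hS, hp⟩
  · intro n i j S _ _ _ _ _ _ _ c hcc
    exact hline R 0 n i j S c hRs hcc

end Vale.Agent.P108.Por
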