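import Mathlib

/-!
# Mean porosity: measure decay for sets with holes at many scales

A set `S` of reals is given.  A grid is a nested sequence of partitions of the line into
half-open intervals of length `2 ^ (-m)`.  A cell is marked if it contains an interval of
relative length at least `h` which misses `S`.  The set of points of `S` with `n` marked
cells at separated generations has measure at most `(1 - h / 2) ^ n` times the measure of the
starting cell.
-/

open MeasureTheory Set

namespace Vale.Agent.P108.Por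

/-- Cell index of `t` at generation `m` in the grid with offsets `σ`. -/
noncomputable def cidx (σ : ℕ → ℝ) (m : ℕ) (t : ℝ) : ℤ := ⌊(2 : ℝ) ^ m * t - σ m⌋

/-- The cell with index `j` at generation `m`. -/
def cell (σ : ℕ → ℝ) (m : ℕ) (j : ℤ) : Set ℝ := {t | cidx σ m t = j}

/-- Nestedness of a grid. -/
def Nested (σ : ℕ → ℝ) : Prop :=
  ∀ m t t', cidx σ (m + 1) t = cidx σ (m + 1) t' → cidx σ m t = cidx σ m t'

lemma Nested.le {σ : ℕ → ℝ} (hσ : Nested σ) {m m' : ℕ} (h : m ≤ m') {t t' : ℝ}
    (ht : cidx σ m' t = cidx σ m' t') : cidx σ m t = cidx σ m t' := by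
  induction h with
  | refl => exact ht
  | step _ ih => exact ih (hσ _ _ _ ht)

lemma cell_eq (σ : ℕ → ℝ) (m : ℕ) (j : ℤ) :
    cell σ m j = Ico (((j : ℝ) + σ m) / 2 ^ m) (((j : ℝ) + σ m) / 2 ^ m + 1 / 2 ^ m) := by
  have h2 : (0 : ℝ) < 2 ^ m := by positivity
  ext t
  simp only [cell, cidx, mem_ofPred_eq, mem_Ico, Int.floor_eq_iff]
  rw [div_le_iff₀ h2, ← add_div, lt_div_iff₀ h2]
  constructor
  · rintro ⟨h, h'⟩; constructor <;> linarith
  · rintro ⟨h, h'⟩; constructor <;> linarith

lemma measurableSet_cell (σ : ℕ → ℝ) (m : ℕ) (j : ℤ) : MeasurableSet (cell σ m j) := by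
  rw [cell_eq]; exact measurableSet_Ico

lemma volume_cell (σ : ℕ → ℝ) (m : ℕ) (j : ℤ) :
    volume (cell σ m j) = ENNReal.ofReal (1 / 2 ^ m) := by
  rw [cell_eq, Real.volume_Ico]; congr 1; ring

lemma mem_cell (σ : ℕ → ℝ) (m : ℕ) (t : ℝ) : t ∈ cell σ m (cidx σ m t) := rfl

/-- A cell is marked if it contains an interval of relative length `h` without points of `S`. -/
def Marked (σ : ℕ → ℝ) (S : Set ℝ) (h : ℝ) (m : ℕ) (j : ℤ) : Prop :=
  ∃ a b : ℝ, Ioo a b ⊆ cell σ m j ∧ h / 2 ^ m ≤ b - a ∧ Disjoint (Ioo a b) S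

/-- `t` has at least `n` marked cells at generations at least `m`, separated by `g`. -/
def Has (σ : ℕ → ℝ) (S : Set ℝ) (h : ℝ) (g : ℕ) : ℕ → ℕ → ℝ → Prop
  | 0, _, _ => True
  | n + 1, m, t => ∃ m', m ≤ m' ∧ Marked σ S h m' (cidx σ m' t) ∧ Has σ S h g n (m' + g) t

lemma Has.mono {σ : ℕ → ℝ} {S : Set ℝ} {h : ℝ} {g n m m' : ℕ} {t : ℝ} (hm : m' ≤ m)
    (H : Has σ S h g n m t) : Has σ S h g n m' t := by
  cases n with
  | zero => trivial
  | succ n =>
    obtain ⟨p, hp, h1, h2⟩ := H
    exact ⟨p, hm.trans hp, h1, h2⟩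

/-- The main decay estimate in one grid. -/
theorem volume_has_le {σ : ℕ → ℝ} (hσ : Nested σ) {S : Set ℝ} {h : ℝ} (_h0 : 0 < h) (h1 : h ≤ 1)
    {g : ℕ} (hg : 4 ≤ h * 2 ^ g) (n : ℕ) : ∀ (m : ℕ) (j : ℤ),
    volume {t | t ∈ S ∧ t ∈ cell σ m j ∧ Has σ S h g n m t} ≤
      ENNReal.ofReal ((1 - h / 2) ^ n) * volume (cell σ m j) := by
  induction n with
  | zero =>
    intro m j
    simp only [pow_zero, ENNReal.ofReal_one, one_mul]
    exact measure_mono fun t ht => ht.2.1
  | succ n ih =>
    intro m j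
    -- nodes: first marked cells
    let IsNode : ℕ → ℤ → Prop := fun m' j' => m ≤ m' ∧ Marked σ S h m' j' ∧
      cell σ m' j' ⊆ cell σ m j ∧ ∀ t ∈ cell σ m' j', ∀ p, m ≤ p → p < m' →
        ¬ Marked σ S h p (cidx σ p t)
    let Nd : Type := {q : ℕ × ℤ // IsNode q.1 q.2}
    have hcover : {t | t ∈ S ∧ t ∈ cell σ m j ∧ Has σ S h g (n + 1) m t} ⊆
        ⋃ q : Nd, {t | t ∈ S ∧ t ∈ cell σ q.1.1 q.1.2 ∧ Has σ S h g n (q.1.1 + g) t} := by
      classical
      rintro t ⟨htS, htc, m', hm', hmk, hh⟩
      have hex : ∃ p, m ≤ p ∧ Marked σ S h p (cidx σ p t) := ⟨m', hm', hmk⟩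
      have hsp := Nat.find_spec hex
      set p := Nat.find hex with hp
      have hpm' : p ≤ m' := Nat.find_min' hex ⟨hm', hmk⟩
      refine mem_iUnion.2 ⟨⟨(p, cidx σ p t), hsp.1, hsp.2, ?_, ?_⟩, htS, mem_cell σ p t, ?_⟩
      · intro s hs
        have : cidx σ m s = cidx σ m t := hσ.le hsp.1 hs
        change cidx σ m s = j
        rw [this]; exact htc
      · intro s hs r hr hrp hmr
        have : cidx σ r s = cidx σ r t := hσ.le hrp.le hs
        rw [this] at hmr
        exact Nat.find_min hex hrp ⟨hr, hmr⟩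
      · exact hh.mono (by simpa using hpm')
    have hdisj : Pairwise (Function.onFun Disjoint fun q : Nd => cell σ q.1.1 q.1.2) := by
      intro q q' hne
      rw [Function.onFun, Set.disjoint_left]
      intro t ht ht'
      apply hne
      rcases lt_trichotomy q.1.1 q'.1.1 with hlt | heq | hlt
      · exfalso
        have := q'.2.2.2.2 t ht' q.1.1 q.2.1 hlt
        apply this
        have e : cidx σ q.1.1 t = q.1.2 := ht
        rw [e]; exact q.2.2.1
      · apply Subtype.ext
        apply Prod.ext heq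
        have e : cidx σ q.1.1 t = q.1.2 := ht
        have e' : cidx σ q'.1.1 t = q'.1.2 := ht'
        rw [← e, ← e', heq]
      · exfalso
        have := q.2.2.2.2 t ht q'.1.1 q'.2.1 hlt
        apply this
        have e : cidx σ q'.1.1 t = q'.1.2 := ht'
        rw [e]; exact q'.2.2.1
    -- estimate in one node
    have hnode : ∀ q : Nd,
        volume {t | t ∈ S ∧ t ∈ cell σ q.1.1 q.1.2 ∧ Has σ S h g n (q.1.1 + g) t} ≤
        ENNReal.ofReal ((1 - h / 2) ^ (n + 1)) * volume (cell σ q.1.1 q.1.2) := by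
      rintro ⟨⟨p, i⟩, hp, ⟨a, b, hab, hlen, hdS⟩, hsub, -⟩
      simp only
      let Ch : Type := {i' : ℤ // cell σ (p + g) i' ⊆ cell σ p i ∧ ¬ cell σ (p + g) i' ⊆ Ioo a b}
      have hc2 : {t | t ∈ S ∧ t ∈ cell σ p i ∧ Has σ S h g n (p + g) t} ⊆
          ⋃ c : Ch, {t | t ∈ S ∧ t ∈ cell σ (p + g) c.1 ∧ Has σ S h g n (p + g) t} := by
        rintro t ⟨htS, htc, hh⟩
        refine mem_iUnion.2 ⟨⟨cidx σ (p + g) t, ?_, ?_⟩, htS, mem_cell _ _ _, hh⟩
        · intro s hs
          have : cidx σ p s = cidx σ p t := hσ.le (Nat.le_add_right p g) hs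
          change cidx σ p s = i
          rw [this]; exact htc
        · intro hsub'
          exact Set.disjoint_left.1 hdS (hsub' (mem_cell _ _ _)) htS
      have hdis2 : Pairwise (Function.onFun Disjoint fun c : Ch => cell σ (p + g) c.1) := by
        intro c c' hne
        rw [Function.onFun, Set.disjoint_left]
        intro t ht ht'
        apply hne
        apply Subtype.ext
        have e : cidx σ (p + g) t = c.1 := ht
        have e' : cidx σ (p + g) t = c'.1 := ht'
        rw [← e, e']
      have hU : volume (⋃ c : Ch, cell σ (p + g) c.1) ≤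
          ENNReal.ofReal ((1 - h / 2)) * volume (cell σ p i) := by
        set δ : ℝ := 1 / 2 ^ (p + g) with hδ
        have hδ0 : 0 < δ := by positivity
        have hmid : (⋃ c : Ch, cell σ (p + g) c.1) ⊆ cell σ p i \ Ico (a + δ) (b - δ) := by
          rintro t ht
          obtain ⟨⟨i', hi1, hi2⟩, hti⟩ := mem_iUnion.1 ht
          refine ⟨hi1 hti, ?_⟩
          rintro ⟨h3, h4⟩
          apply hi2
          rw [cell_eq] at hti ⊢
          intro s hs
          simp only [mem_Ico] at hti hs
          rw [← hδ] at hti hs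
          constructor <;> linarith [hti.1, hti.2, hs.1, hs.2]
        have hIn : Ico (a + δ) (b - δ) ⊆ cell σ p i := by
          intro s hs
          apply hab
          simp only [mem_Ico] at hs
          constructor <;> linarith [hs.1, hs.2]
        calc volume (⋃ c : Ch, cell σ (p + g) c.1)
            ≤ volume (cell σ p i \ Ico (a + δ) (b - δ)) := measure_mono hmid
          _ = volume (cell σ p i) - volume (Ico (a + δ) (b - δ)) := by
              rw [measure_sdiff hIn measurableSet_Ico.nullMeasurableSet]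
              rw [Real.volume_Ico]; exact ENNReal.ofReal_ne_top
          _ ≤ ENNReal.ofReal ((1 - h / 2)) * volume (cell σ p i) := by
              rw [volume_cell, Real.volume_Ico, ← ENNReal.ofReal_mul (by linarith),
                ← ENNReal.ofReal_sub]
              · apply ENNReal.ofReal_le_ofReal
                have e1 : δ = 1 / 2 ^ p * (1 / 2 ^ g) := by
                  rw [hδ, pow_add]; field_simp
                have e2 : (1 : ℝ) / 2 ^ g ≤ h / 4 := by
                  rw [div_le_div_iff₀ (by positivity) (by norm_num)]; linarith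
                have e3 : (0 : ℝ) < 1 / 2 ^ p := by positivity
                have e4 : h / 2 ^ p = h * (1 / 2 ^ p) := by ring
                have e5 : δ ≤ 1 / 2 ^ p * (h / 4) := by
                  rw [e1]; exact mul_le_mul_of_nonneg_left e2 e3.le
                nlinarith
              · have e1 : δ = 1 / 2 ^ p * (1 / 2 ^ g) := by
                  rw [hδ, pow_add]; field_simp
                have e2 : (1 : ℝ) / 2 ^ g ≤ h / 4 := by
                  rw [div_le_div_iff₀ (by positivity) (by norm_num)]; linarith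
                have e3 : (0 : ℝ) < 1 / 2 ^ p := by positivity
                have e4 : h / 2 ^ p = h * (1 / 2 ^ p) := by ring
                have e5 : δ ≤ 1 / 2 ^ p * (h / 4) := by
                  rw [e1]; exact mul_le_mul_of_nonneg_left e2 e3.le
                nlinarith
      calc volume {t | t ∈ S ∧ t ∈ cell σ p i ∧ Has σ S h g n (p + g) t}
          ≤ ∑' c : Ch, volume {t | t ∈ S ∧ t ∈ cell σ (p + g) c.1 ∧ Has σ S h g n (p + g) t} :=
            (measure_mono hc2).trans (measure_iUnion_le _)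
        _ ≤ ∑' c : Ch, ENNReal.ofReal ((1 - h / 2) ^ n) * volume (cell σ (p + g) c.1) :=
            ENNReal.tsum_le_tsum fun c => ih (p + g) c.1
        _ = ENNReal.ofReal ((1 - h / 2) ^ n) * volume (⋃ c : Ch, cell σ (p + g) c.1) := by
            rw [ENNReal.tsum_mul_left, measure_iUnion hdis2 fun c => measurableSet_cell _ _ _]
        _ ≤ ENNReal.ofReal ((1 - h / 2) ^ n) *
              (ENNReal.ofReal ((1 - h / 2)) * volume (cell σ p i)) := by gcongr
        _ = ENNReal.ofReal ((1 - h / 2) ^ (n + 1)) * volume (cell σ p i) := by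
            have h3 : 0 ≤ 1 - h / 2 := by linarith
            rw [← mul_assoc, ← ENNReal.ofReal_mul (pow_nonneg h3 n), pow_succ]
    calc volume {t | t ∈ S ∧ t ∈ cell σ m j ∧ Has σ S h g (n + 1) m t}
        ≤ ∑' q : Nd, volume {t | t ∈ S ∧ t ∈ cell σ q.1.1 q.1.2 ∧ Has σ S h g n (q.1.1 + g) t} :=
          (measure_mono hcover).trans (measure_iUnion_le _)
      _ ≤ ∑' q : Nd, ENNReal.ofReal ((1 - h / 2) ^ (n + 1)) * volume (cell σ q.1.1 q.1.2) :=
          ENNReal.tsum_le_tsum hnode
      _ = ENNReal.ofReal ((1 - h / 2) ^ (n + 1)) * volume (⋃ q : Nd, cell σ q.1.1 q.1.2) := by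
          rw [ENNReal.tsum_mul_left, measure_iUnion hdisj fun q => measurableSet_cell _ _ _]
      _ ≤ ENNReal.ofReal ((1 - h / 2) ^ (n + 1)) * volume (cell σ m j) := by
          gcongr
          exact iUnion_subset fun q => q.2.2.2.1

end Vale.Agent.P108.Por
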