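import Vale.Agent.P108.Sk.Defs
import Vale.Agent.P108.Sk.Blocks
import Vale.Agent.P108.Area.Coord

/-!
# P108: peaks with a fixed pattern, translation and measurability of peaks
-/

open MeasureTheory Filter Set Topology

namespace Vale.Agent.P108.Por

open Vale.Agent.P108 Vale.Agent.P108.Dyn Vale.Agent.P108.H786 Vale.Agent.P108.Area P108C
open Vale.Agent.P108.Sk hiding s0 PeakBound

lemma peak_iff {k s : ℝ} {a : ℤ → ℝ} {R : ℕ} {m n i j : ℤ} :
    Peak k s a R m n i j ↔ ∃ S ∈ patterns (Sk.s0 k) i (j + 1), PeakPat k s a R m n i j S :=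
  Iff.rfl

/-! ### translation -/

lemma S_shift (a : ℤ → ℝ) (c p : ℤ) : ∀ n : ℕ,
    H504.S (fun t => a (t + c)) p n = H504.S a (p + c) n
  | 0 => rfl
  | 1 => rfl
  | (n + 2) => by
    rw [H504.S_succ, H504.S_succ, S_shift a c p n, S_shift a c p (n + 1)]
    congr 3
    ring

lemma D_shift (a : ℤ → ℝ) (c p q : ℤ) :
    Sk.D (fun t => a (t + c)) p q = Sk.D a (p + c) (q + c) := by
  change H504.D _ _ _ = H504.D _ _ _
  unfold H504.D
  rw [S_shift]
  congr 2
  ring

/-- translated decision -/
def tr (c : ℤ) : Dec → Dec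
  | .crit t => .crit (t + c)
  | .nc t => .nc (t + c)
  | .c1 i j => .c1 (i + c) (j + c)
  | .c2 i j => .c2 (i + c) (j + c)
  | .gr i j => .gr (i + c) (j + c)
  | .pk R i m j => .pk R (i + c) (m + c) (j + c)

lemma num_shift (a : ℤ → ℝ) (c : ℤ) (d : Dec) : d.num (fun t => a (t + c)) = (tr c d).num a := by
  cases d <;> simp only [Dec.num, tr, D_shift]

lemma den_shift (k : ℝ) (a : ℤ → ℝ) (c : ℤ) (d : Dec) :
    d.den k (fun t => a (t + c)) = (tr c d).den k a := by
  cases d with
  | crit t => rfl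
  | nc t => rfl
  | c1 i j => simp only [Dec.den, tr, D_shift]; congr 3; ring
  | c2 i j => simp only [Dec.den, tr, D_shift]; congr 3; ring
  | gr i j =>
    simp only [Dec.den, tr]
    rw [show j + c + 1 - (i + c) = j + 1 - i by ring]
  | pk R i m j =>
    simp only [Dec.den, tr, D_shift]
    congr 4; ring

lemma low_shift (k s : ℝ) (a : ℤ → ℝ) (c : ℤ) (d : Dec) :
    Low k s (fun t => a (t + c)) d ↔ Low k s a (tr c d) := by
  unfold Low
  rw [num_shift, den_shift]

lemma ms_image (S : Finset ℤ) (c u w : ℤ) :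
    ms (↑(S.map (addRightEmbedding (-c)))) u w = ms (↑S) (u + c) (w + c) := by
  classical
  unfold ms
  refine Finset.card_bij (fun t _ => t + c) ?_ ?_ ?_
  · intro t ht
    simp only [Finset.mem_filter, Finset.mem_Ico, Finset.mem_coe, Finset.mem_map,
      addRightEmbedding_apply] at ht ⊢
    obtain ⟨⟨h1, h2⟩, x, hx, rfl⟩ := ht
    refine ⟨⟨by omega, by omega⟩, ?_⟩
    simpa using hx
  · intro x _ y _ h
    simpa using h
  · intro y hy
    simp only [Finset.mem_filter, Finset.mem_Ico, Finset.mem_coe] at hy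
    refine ⟨y - c, ?_, by ring⟩
    simp only [Finset.mem_filter, Finset.mem_Ico, Finset.mem_coe, Finset.mem_map,
      addRightEmbedding_apply]
    exact ⟨⟨by omega, by omega⟩, y, hy.2, by ring⟩

/-- translation of peaks with a pattern -/
theorem peakPat_shift {k s : ℝ} {a : ℤ → ℝ} {R : ℕ} {m n i j : ℤ} {S : Finset ℤ}
    (h : PeakPat k s a R m n i j S) (c : ℤ) :
    PeakPat k s (fun t => a (t + c)) R (m - c) (n - c) (i - c) (j - c)
      (S.map (addRightEmbedding (-c))) where
  hmn := by have := h.hmn; omega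
  obj := by have := h.obj; rw [show n - c - (m - c) + 1 = n - m + 1 by ring]; exact this
  i1 := by have := h.i1; omega
  i2 := by have := h.i2; omega
  j1 := by have := h.j1; omega
  j2 := by have := h.j2; omega
  grL := by
    rw [low_shift]
    simp only [tr]
    rw [show i - c + c = i by ring, show m - c - 2 + c = m - 2 by ring]
    exact h.grL
  grR := by
    rw [low_shift]
    simp only [tr]
    rw [show m - c + c = m by ring, show j - c + c = j by ring]
    exact h.grR
  spL := by
    intro y h1 h2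
    rw [ms_image, show m - c - y + c = m - y by ring, show m - c + c = m by ring]
    exact h.spL y h1 (by omega)
  spR := by
    intro y h1 h2
    rw [ms_image, show n - c + 1 + c = n + 1 by ring, show n - c + 1 + y + c = n + 1 + y by ring]
    exact h.spR y h1 (by omega)
  coneL := by
    intro p h1 h2 h3
    rw [low_shift]
    simp only [tr]
    rw [show i - c + c = i by ring, show p - 1 + c = p + c - 1 by ring]
    refine h.coneL (p + c) (by omega) (by omega) fun y h4 h5 => ?_
    have := h3 y h4 (by omega)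
    rwa [ms_image, show p - y + c = p + c - y by ring] at this
  coneR := by
    intro r h1 h2 h3
    rw [low_shift]
    simp only [tr]
    rw [show r + 1 + c = r + c + 1 by ring, show j - c + c = j by ring]
    refine h.coneR (r + c) (by omega) (by omega) fun y h4 h5 => ?_
    have := h3 y h4 (by omega)
    rwa [ms_image, show r + 1 + c = r + c + 1 by ring, show r + 1 + y + c = r + c + 1 + y by ring]
      at this
  deep := by
    rw [low_shift]
    simp only [tr]
    rw [show i - c + c = i by ring, show m - c + c = m by ring, show j - c + c = j by ring]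
    exact h.deep

/-- the coefficients along the line with frozen site `m - 1` are the translated coefficients along
the line with frozen site `0` -/
lemma ao_pt (k : ℝ) (m : ℤ) (w : ℝ × ℝ) :
    (fun t => ao k (pt k m w) (t + (m - 1))) = ao k (pt k 1 w) := by
  funext t
  unfold ao
  have h : pt k 1 w = Fz k (m - 1) (pt k m w) := by
    unfold pt
    rw [← Fz_add]
    congr 1
    ring
  rw [h, orb_Fz]

theorem peakPat_to_one {k s : ℝ} {w : ℝ × ℝ} {R : ℕ} {m n i j : ℤ} {S : Finset ℤ}
    (h : PeakPat k s (ao k (pt k m w)) R m n i j S) :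
    PeakPat k s (ao k (pt k 1 w)) R 1 (n - (m - 1)) (i - (m - 1)) (j - (m - 1))
      (S.map (addRightEmbedding (-(m - 1)))) := by
  have := peakPat_shift h (m - 1)
  rwa [ao_pt, show m - (m - 1) = 1 by ring] at this

/-! ### measurability and periodicity -/

lemma measurable_ao' (k : ℝ) (i : ℤ) : Measurable (fun z => ao k z i) := (continuous_ao k i).measurable

lemma measurable_D (k : ℝ) (p q : ℤ) : Measurable (fun z => Sk.D (ao k z) p q) :=
  (continuous_D k p q).measurable

lemma measurable_num (k : ℝ) (d : Dec) : Measurable (fun z => d.num (ao k z)) := by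
  cases d <;> simp only [Dec.num] <;>
    first | exact (measurable_ao' k _).abs | exact (measurable_D k _ _).abs

lemma measurable_den (k : ℝ) (d : Dec) : Measurable (fun z => d.den k (ao k z)) := by
  cases d <;> simp only [Dec.den]
  · exact measurable_const
  · exact measurable_const
  · exact (measurable_D k _ _).abs.const_mul _
  · exact (measurable_D k _ _).abs.const_mul _
  · exact measurable_const
  · exact ((measurable_D k _ _).abs.mul (measurable_D k _ _).abs).const_mul _

theorem measurableSet_low (k s : ℝ) (d : Dec) : MeasurableSet {z | Low k s (ao k z) d} :=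
  measurableSet_lt (measurable_num k d) ((measurable_den k d).const_mul _)

lemma measurableSet_imp {P : Prop} {A : Set (ℝ × ℝ)} (hA : MeasurableSet A) :
    MeasurableSet {z | P → z ∈ A} := by
  by_cases h : P
  · simpa [h] using hA
  · simp [h]

theorem measurableSet_peakPat (k s : ℝ) (R : ℕ) (m n i j : ℤ) (S : Finset ℤ) :
    MeasurableSet {z | PeakPat k s (ao k z) R m n i j S} := by
  have hl := fun d => (measurableSet_low k s d)
  have hc := fun d => (measurableSet_low k s d).compl
  have e : {z | PeakPat k s (ao k z) R m n i j S} =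
      {_z : ℝ × ℝ | m ≤ n ∧ (cP : ℤ) * (n - m + 1) ≤ R ∧ m - i ≤ R ∧ (R : ℤ) ≤ 2 * (m - i) ∧
        j - n ≤ R ∧ (R : ℤ) ≤ 2 * (j - n) ∧
        (∀ y : ℕ, 1 ≤ y → i ≤ m - y → (ms (↑S) (m - y) m : ℝ) ≤ c1 * y) ∧
        (∀ y : ℕ, 1 ≤ y → n + y ≤ j → (ms (↑S) (n + 1) (n + 1 + y) : ℝ) ≤ c1 * y)} ∩
      ({z | Low k s (ao k z) (.gr i (m - 2))}ᶜ ∩ {z | Low k s (ao k z) (.gr m j)}ᶜ ∩
      {z | Low k s (ao k z) (.pk R i m j)} ∩
      (⋂ p : ℤ, {z | (i < p ∧ p < m ∧
        (∀ y : ℕ, 1 ≤ y → i ≤ p - y → (ms (↑S) (p - y) p : ℝ) < c0 * y)) →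
        z ∈ {z | Low k s (ao k z) (.c1 i (p - 1))}ᶜ}) ∩
      (⋂ r : ℤ, {z | (n < r ∧ r < j ∧
        (∀ y : ℕ, 1 ≤ y → r + y ≤ j → (ms (↑S) (r + 1) (r + 1 + y) : ℝ) < c0 * y)) →
        z ∈ {z | Low k s (ao k z) (.c2 (r + 1) j)}ᶜ})) := by
    ext z
    simp only [mem_ofPred_eq, mem_inter_iff, mem_compl_iff, mem_iInter]
    constructor
    · intro h
      exact ⟨⟨h.hmn, h.obj, h.i1, h.i2, h.j1, h.j2, h.spL, h.spR⟩,
        ⟨⟨⟨⟨h.grL, h.grR⟩, h.deep⟩, fun p hp => h.coneL p hp.1 hp.2.1 hp.2.2⟩,
          fun r hr => h.coneR r hr.1 hr.2.1 hr.2.2⟩⟩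
    · rintro ⟨⟨h1, h2, h3, h4, h5, h6, h7, h8⟩, ⟨⟨⟨⟨h9, h10⟩, h11⟩, h12⟩, h13⟩⟩
      exact ⟨h1, h2, h3, h4, h5, h6, h9, h10, h7, h8, fun p a b c => h12 p ⟨a, b, c⟩,
        fun r a b c => h13 r ⟨a, b, c⟩, h11⟩
  rw [e]
  exact (MeasurableSet.const _).inter ((((((hc _).inter (hc _)).inter (hl _)).inter
    (MeasurableSet.iInter fun p => measurableSet_imp (hc _))).inter
      (MeasurableSet.iInter fun p => measurableSet_imp (hc _))))

theorem measurableSet_peak (k s : ℝ) (R : ℕ) (m n i j : ℤ) :
    MeasurableSet {z | Peak k s (ao k z) R m n i j} := by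
  have e : {z | Peak k s (ao k z) R m n i j} =
      ⋃ S ∈ patterns (Sk.s0 k) i (j + 1), {z | PeakPat k s (ao k z) R m n i j S} := by
    ext z
    simp only [mem_ofPred_eq, mem_iUnion, peak_iff, exists_prop]
  rw [e]
  exact Finset.measurableSet_biUnion _ fun S _ => measurableSet_peakPat k s R m n i j S

/-- the coefficients are invariant under integer translations of the point -/
lemma ao_add_ip (k : ℝ) (z : ℝ × ℝ) (a b : ℤ) : ao k (z + ip a b) = ao k z := by
  funext i
  unfold ao FT.a
  rw [orb_add_ip]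
  congr 2
  have : 2 * Real.pi * (orb k z i + ((a : ℝ) + i * b))
      = 2 * Real.pi * orb k z i + ((a + i * b : ℤ) : ℝ) * (2 * Real.pi) := by push_cast; ring
  rw [this, Real.cos_add_int_mul_two_pi]

/-- sets defined by the coefficients are periodic -/
theorem per_of_ao (k : ℝ) (P : (ℤ → ℝ) → Prop) : Per {z | P (ao k z)} := by
  intro z a b
  simp only [mem_ofPred_eq]
  rw [ao_add_ip]

end Vale.Agent.P108.Por
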