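import Vale.Agent.P108.Area.Coord

/-!
# P108: measures of sets of the torus from their slices by the lines `x_{m-1} = c` or `x_m = c`

The area is `dx_{m-1} dx_m` (`Area.mQ_pt`); so a bound of the one-dimensional measures of the slices
by all lines gives the same bound of the area.
-/

open MeasureTheory Filter Set Topology

open scoped ENNReal

namespace Vale.Agent.P108.Por

open Vale.Agent.P108 Vale.Agent.P108.Dyn Vale.Agent.P108.H786 Vale.Agent.P108.Area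

/-- area from the slices by the lines `x_{m-1} = c` -/
theorem mQ_le_of_line {k : ℝ} {m : ℤ} {A : Set (ℝ × ℝ)} (hA : Per A) (hm : MeasurableSet A)
    {ε : ℝ≥0∞}
    (h : ∀ c ∈ Ico (0 : ℝ) 1, volume {t | t ∈ Ico (0 : ℝ) 1 ∧ pt k m (c, t) ∈ A} ≤ ε) :
    mQ A ≤ ε := by
  rw [← mQ_pt hA hm k m, mQ_eq]
  have hm' : MeasurableSet {w | pt k m w ∈ A} := measurable_pt k m hm
  rw [Measure.prod_apply hm']
  calc ∫⁻ c in Ico (0 : ℝ) 1, (volume.restrict (Ico (0 : ℝ) 1)) (Prod.mk c ⁻¹' {w | pt k m w ∈ A})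
      ≤ ∫⁻ _c in Ico (0 : ℝ) 1, ε := by
        refine setLIntegral_mono' measurableSet_Ico fun c hc => ?_
        rw [Measure.restrict_apply (measurable_prodMk_left hm')]
        refine le_trans (le_of_eq ?_) (h c hc)
        congr 1
        ext t
        simp only [mem_inter_iff, mem_preimage, mem_ofPred_eq]
        exact and_comm
    _ = ε := by simp

/-- area from the slices by the lines `x_m = c` -/
theorem mQ_le_of_line' {k : ℝ} {m : ℤ} {A : Set (ℝ × ℝ)} (hA : Per A) (hm : MeasurableSet A)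
    {ε : ℝ≥0∞}
    (h : ∀ c ∈ Ico (0 : ℝ) 1, volume {t | t ∈ Ico (0 : ℝ) 1 ∧ pt k m (t, c) ∈ A} ≤ ε) :
    mQ A ≤ ε := by
  rw [← mQ_pt hA hm k m, mQ_eq]
  have hm' : MeasurableSet {w | pt k m w ∈ A} := measurable_pt k m hm
  rw [Measure.prod_apply_symm hm']
  calc ∫⁻ c in Ico (0 : ℝ) 1,
        (volume.restrict (Ico (0 : ℝ) 1)) ((fun x => (x, c)) ⁻¹' {w | pt k m w ∈ A})
      ≤ ∫⁻ _c in Ico (0 : ℝ) 1, ε := by
        refine setLIntegral_mono' measurableSet_Ico fun c hc => ?_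
        rw [Measure.restrict_apply (measurable_prodMk_right hm')]
        refine le_trans (le_of_eq ?_) (h c hc)
        congr 1
        ext t
        simp only [mem_inter_iff, mem_preimage, mem_ofPred_eq]
        exact and_comm
    _ = ε := by simp

/-- finite union of pieces, all cut by the lines `x_{m-1} = c` with the same `m` (no measurability of
the pieces is needed) -/
theorem mQ_le_of_line_union {k : ℝ} {m : ℤ} {A : Set (ℝ × ℝ)} (hA : Per A) (hm : MeasurableSet A)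
    {ι : Type*} (I : Finset ι) (B : ι → Set (ℝ × ℝ)) (hAB : ∀ z ∈ A, ∃ i ∈ I, z ∈ B i) {ε : ℝ≥0∞}
    (h : ∀ i ∈ I, ∀ c ∈ Ico (0 : ℝ) 1, volume {t | t ∈ Ico (0 : ℝ) 1 ∧ pt k m (c, t) ∈ B i} ≤ ε) :
    mQ A ≤ I.card * ε := by
  refine mQ_le_of_line (k := k) (m := m) hA hm fun c hc => ?_
  calc volume {t | t ∈ Ico (0 : ℝ) 1 ∧ pt k m (c, t) ∈ A}
      ≤ volume (⋃ i ∈ I, {t | t ∈ Ico (0 : ℝ) 1 ∧ pt k m (c, t) ∈ B i}) := by
        refine measure_mono fun t ht => ?_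
        obtain ⟨i, hi, hz⟩ := hAB _ ht.2
        exact mem_biUnion hi ⟨ht.1, hz⟩
    _ ≤ ∑ i ∈ I, volume {t | t ∈ Ico (0 : ℝ) 1 ∧ pt k m (c, t) ∈ B i} :=
        measure_biUnion_finset_le _ _
    _ ≤ ∑ _i ∈ I, ε := Finset.sum_le_sum fun i hi => h i hi c hc
    _ = I.card * ε := by rw [Finset.sum_const, nsmul_eq_mul]

/-- finite union of pieces, with a line index depending on the piece -/
theorem mQ_le_of_lines {k : ℝ} {ι : Type*} (I : Finset ι) (m : ι → ℤ) {A : Set (ℝ × ℝ)}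
    (B : ι → Set (ℝ × ℝ)) (hB : ∀ i ∈ I, Per (B i)) (hm : ∀ i ∈ I, MeasurableSet (B i))
    (hAB : ∀ z ∈ A, ∃ i ∈ I, z ∈ B i) {ε : ℝ≥0∞}
    (h : ∀ i ∈ I, ∀ c ∈ Ico (0 : ℝ) 1,
      volume {t | t ∈ Ico (0 : ℝ) 1 ∧ pt k (m i) (c, t) ∈ B i} ≤ ε) :
    mQ A ≤ I.card * ε := by
  calc mQ A ≤ mQ (⋃ i ∈ I, B i) := by
        refine measure_mono fun z hz => ?_
        obtain ⟨i, hi, hz'⟩ := hAB z hz
        exact mem_biUnion hi hz'
    _ ≤ ∑ i ∈ I, mQ (B i) := measure_biUnion_finset_le _ _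
    _ ≤ ∑ _i ∈ I, ε := Finset.sum_le_sum fun i hi => mQ_le_of_line (hB i hi) (hm i hi) (h i hi)
    _ = I.card * ε := by rw [Finset.sum_const, nsmul_eq_mul]

end Vale.Agent.P108.Por
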